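import Vale.Agent.P072.TVDefs

/-! # Endotactic networks: definition -/

namespace Vale.Agent.P072

variable {d : ℕ}

/-- A network is endotactic (Craciun, Nazarov and Pantea): for every direction `w`, every
reaction `y → y'` with `w · (y' - y) ≠ 0` whose source `y` maximizes `w · z` among the sources
`z` of all reactions `z → z'` with `w · (z' - z) ≠ 0` satisfies `w · (y' - y) < 0`. -/
def Network.Endotactic (G : Network d) : Prop :=
  ∀ w : Fin d → ℝ, ∀ r ∈ G.reactions,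
    ∑ i, w i * ((r.2 i : ℝ) - (r.1 i : ℝ)) ≠ 0 →
    (∀ s ∈ G.reactions, ∑ i, w i * ((s.2 i : ℝ) - (s.1 i : ℝ)) ≠ 0 →
      ∑ i, w i * (s.1 i : ℝ) ≤ ∑ i, w i * (r.1 i : ℝ)) →
    ∑ i, w i * ((r.2 i : ℝ) - (r.1 i : ℝ)) < 0

end Vale.Agent.P072
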