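import Vale.Agent.P072.Bdl.B1
import Vale.Agent.P072.H603.Defs

/-! # Rounding of covectors and the drop lemma for endotactic networks -/

set_option linter.all false

namespace Vale.Agent.P072.H603

open Finset

variable {d : ℕ}

/-- A covector that is small on a finite set of vectors is close to a covector that vanishes
on this set. -/
theorem exists_round_aux (U : Finset (Fin d → ℝ)) :
    ∃ C : ℝ, 0 ≤ C ∧ ∀ (p : Fin d → ℝ) (t : ℝ), 0 ≤ t → (∀ v ∈ U, |∑ i, p i * v i| ≤ t) →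
      ∃ w : Fin d → ℝ, (∀ v ∈ U, ∑ i, w i * v i = 0) ∧ ∀ i, |w i - p i| ≤ C * t := by
  classical
  let L : (Fin d → ℝ) →ₗ[ℝ] (U → ℝ) :=
    { toFun := fun p v => ∑ i, p i * v.1 i
      map_add' := by
        intro p q
        ext v
        simp only [Pi.add_apply, add_mul, Finset.sum_add_distrib]
      map_smul' := by
        intro a p
        ext v
        simp only [Pi.smul_apply, smul_eq_mul, RingHom.id_apply, Finset.mul_sum, mul_assoc] }
  obtain ⟨g, hg⟩ := L.rangeRestrict.exists_rightInverse_of_surjective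
    (LinearMap.range_rangeRestrict L)
  let g' := g.toContinuousLinearMap
  have hg0 : 0 ≤ ‖g'‖ := norm_nonneg g'
  refine ⟨‖g'‖, hg0, fun p t ht hp => ?_⟩
  set y : LinearMap.range L := ⟨L p, LinearMap.mem_range_self L p⟩ with hy
  have hLg : L (g y) = L p := by
    have h1 : (L.rangeRestrict ∘ₗ g) y = y := by rw [hg]; rfl
    exact congrArg Subtype.val h1
  refine ⟨p - g y, ?_, ?_⟩
  · intro v hv
    have h1 : L (p - g y) = 0 := by rw [map_sub, hLg, sub_self]
    have h2 := congrFun h1 ⟨v, hv⟩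
    exact h2
  · intro i
    have h1 : ‖y‖ ≤ t := by
      have : ‖y‖ = ‖L p‖ := rfl
      rw [this, pi_norm_le_iff_of_nonneg ht]
      intro v
      exact hp v.1 v.2
    have h2 : ‖g y‖ ≤ ‖g'‖ * ‖y‖ := g'.le_opNorm _
    have h3 : |g y i| ≤ ‖g y‖ := norm_le_pi_norm (g y) i
    have h4 : (p - g y) i - p i = - (g y i) := by
      rw [Pi.sub_apply]; ring
    rw [h4, abs_neg]
    calc |g y i| ≤ ‖g'‖ * ‖y‖ := h3.trans h2
      _ ≤ ‖g'‖ * t := mul_le_mul_of_nonneg_left h1 hg0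

/-- The same with one constant for all subsets of a finite set. -/
theorem exists_round_unif (F : Finset (Fin d → ℝ)) :
    ∃ C : ℝ, 0 ≤ C ∧ ∀ U ⊆ F, ∀ (p : Fin d → ℝ) (t : ℝ), 0 ≤ t →
      (∀ v ∈ U, |∑ i, p i * v i| ≤ t) →
      ∃ w : Fin d → ℝ, (∀ v ∈ U, ∑ i, w i * v i = 0) ∧ ∀ i, |w i - p i| ≤ C * t := by
  classical
  choose Cf hCf hCf' using (exists_round_aux (d := d))
  refine ⟨∑ U ∈ F.powerset, Cf U, Finset.sum_nonneg fun U _ => hCf U, ?_⟩
  intro U hU p t ht hp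
  obtain ⟨w, hw1, hw2⟩ := hCf' U p t ht hp
  refine ⟨w, hw1, fun i => (hw2 i).trans (mul_le_mul_of_nonneg_right ?_ ht)⟩
  exact Finset.single_le_sum (f := Cf) (fun U _ => hCf U) (Finset.mem_powerset.2 hU)

/-- Pigeonhole over geometric scales. -/
theorem exists_scale {ι : Type*} (S : Finset ι) (g : ι → ℝ) (a ε : ℝ) (ha : 0 < a)
    (hε : 0 < ε) (hε1 : ε < 1) :
    ∃ j : ℕ, j ≤ S.card ∧ ∀ z ∈ S, ¬ (a * ε ^ (j + 1) ≤ g z ∧ g z < a * ε ^ j) := by
  classical
  by_contra hcon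
  push Not at hcon
  have hex : ∀ j : Fin (S.card + 1), ∃ z ∈ S, a * ε ^ ((j : ℕ) + 1) ≤ g z ∧
      g z < a * ε ^ (j : ℕ) := fun j => hcon j (Nat.lt_succ_iff.1 j.2)
  choose z hzS hz1 hz2 using hex
  have key : ∀ c c' : Fin (S.card + 1), c < c' → z c ≠ z c' := by
    intro c c' hlt heq
    have h1 := hz1 c
    have h2 := hz2 c'
    rw [← heq] at h2
    have hle : (c : ℕ) + 1 ≤ (c' : ℕ) := hlt
    have : a * ε ^ (c' : ℕ) ≤ a * ε ^ ((c : ℕ) + 1) :=
      mul_le_mul_of_nonneg_left (pow_le_pow_of_le_one hε.le hε1.le hle) ha.le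
    linarith only [h1, h2, this]
  have hinj : Function.Injective z := by
    intro c c' h
    by_contra hne
    rcases lt_or_gt_of_ne hne with hlt | hgt
    · exact key c c' hlt h
    · exact key c' c hgt h.symm
  have hcard : Fintype.card (Fin (S.card + 1)) ≤ S.card := by
    have := Finset.card_le_card_of_injOn (s := (Finset.univ : Finset (Fin (S.card + 1))))
      (t := S) z (fun c _ => hzS c) (hinj.injOn)
    rwa [Finset.card_univ] at this
  rw [Fintype.card_fin] at hcard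
  omega

/-- Rounding of covectors: small pairings with the vectors of a finite set are rounded to
zero, and all other pairings keep their sign. -/
theorem exists_round (F : Finset (Fin d → ℝ)) :
    ∃ c : ℝ, 0 < c ∧ c ≤ 1 ∧ ∀ (p : Fin d → ℝ) (a : ℝ), 0 < a →
      ∃ w : Fin d → ℝ, ∀ v ∈ F,
        (0 < ∑ i, w i * v i → c * a ≤ ∑ i, p i * v i) ∧
        (∑ i, w i * v i < 0 → ∑ i, p i * v i ≤ - (c * a)) ∧
        (a ≤ ∑ i, p i * v i → 0 < ∑ i, w i * v i) := by
  classical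
  obtain ⟨C, hC, hround⟩ := exists_round_unif F
  set M : ℝ := ∑ v ∈ F, ∑ i, |v i| with hM
  have hM0 : 0 ≤ M := Finset.sum_nonneg fun v _ => Finset.sum_nonneg fun i _ => abs_nonneg _
  have hMv : ∀ v ∈ F, ∑ i, |v i| ≤ M := fun v hv =>
    Finset.single_le_sum (f := fun v : Fin d → ℝ => ∑ i, |v i|)
      (fun v _ => Finset.sum_nonneg fun i _ => abs_nonneg _) hv
  set ε : ℝ := 1 / (C * M + 2) with hε
  have hCM : 0 ≤ C * M := mul_nonneg hC hM0
  have hε0 : 0 < ε := by rw [hε]; (clear * - hCM; positivity)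
  have hε1 : ε < 1 := by
    rw [hε, div_lt_one (by linarith)]; linarith
  have hCMε : C * M * ε < 1 := by
    rw [hε, mul_one_div, div_lt_one (by linarith)]; linarith
  refine ⟨ε ^ F.card, pow_pos hε0 _, pow_le_one₀ hε0.le hε1.le, fun p a ha => ?_⟩
  obtain ⟨j, hj, hgap⟩ := exists_scale F (fun v => |∑ i, p i * v i|) a ε ha hε0 hε1
  set θ : ℝ := a * ε ^ j with hθ
  have hθ0 : 0 < θ := mul_pos ha (pow_pos hε0 _)
  have hθa : θ ≤ a := by
    rw [hθ]
    calc a * ε ^ j ≤ a * 1 := mul_le_mul_of_nonneg_left (pow_le_one₀ hε0.le hε1.le) ha.le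
      _ = a := mul_one a
  have hcθ : ε ^ F.card * a ≤ θ := by
    rw [hθ, mul_comm]
    exact mul_le_mul_of_nonneg_left (pow_le_pow_of_le_one hε0.le hε1.le hj) ha.le
  set U := F.filter (fun v => |∑ i, p i * v i| < θ) with hU
  have hUsmall : ∀ v ∈ U, |∑ i, p i * v i| ≤ θ * ε := by
    intro v hv
    rw [hU, Finset.mem_filter] at hv
    by_contra hcon
    push Not at hcon
    apply hgap v hv.1
    refine ⟨?_, hv.2⟩
    have : a * ε ^ (j + 1) = θ * ε := by rw [hθ, pow_succ]; ring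
    rw [this]
    exact hcon.le
  obtain ⟨w, hw1, hw2⟩ := hround U (Finset.filter_subset _ _) p (θ * ε)
    (mul_nonneg hθ0.le hε0.le) hUsmall
  have hclose : ∀ v ∈ F, |∑ i, w i * v i - ∑ i, p i * v i| < θ := by
    intro v hv
    rw [← Finset.sum_sub_distrib]
    calc |∑ i, (w i * v i - p i * v i)| ≤ ∑ i, |w i * v i - p i * v i| :=
          Finset.abs_sum_le_sum_abs _ _
      _ ≤ ∑ i, C * (θ * ε) * |v i| := by
          apply Finset.sum_le_sum
          intro i _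
          rw [← sub_mul, abs_mul]
          exact mul_le_mul_of_nonneg_right (hw2 i) (abs_nonneg _)
      _ = C * (θ * ε) * ∑ i, |v i| := by rw [Finset.mul_sum]
      _ ≤ C * (θ * ε) * M := mul_le_mul_of_nonneg_left (hMv v hv) (by (clear * - hC hθ0 hε0; positivity))
      _ = θ * (C * M * ε) := by ring
      _ < θ * 1 := mul_lt_mul_of_pos_left hCMε hθ0
      _ = θ := mul_one θ
  have hlarge : ∀ v ∈ F, ∑ i, w i * v i ≠ 0 → θ ≤ |∑ i, p i * v i| := by
    intro v hv hne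
    by_contra hcon
    push Not at hcon
    exact hne (hw1 v (by rw [hU, Finset.mem_filter]; exact ⟨hv, hcon⟩))
  refine ⟨w, fun v hv => ?_⟩
  have hcl := abs_lt.1 (hclose v hv)
  refine ⟨fun hpos => ?_, fun hneg => ?_, fun hbig => ?_⟩
  · have h1 := hlarge v hv hpos.ne'
    rcases le_abs.1 h1 with h2 | h2
    · exact hcθ.trans h2
    · exfalso; linarith only [h2, hcl.2, hpos]
  · have h1 := hlarge v hv hneg.ne
    rcases le_abs.1 h1 with h2 | h2
    · exfalso; linarith only [h2, hcl.1, hneg]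
    · linarith only [h2, hcθ]
  · linarith only [hbig, hθa, hcl.1]

/-- In an endotactic network, a reaction of positive drop is dominated by a reaction of
negative drop at a higher level. -/
theorem endotactic_negative {G : Network d} (hG : G.Endotactic) (w : Fin d → ℝ)
    (r : (Fin d → ℕ) × (Fin d → ℕ)) (hr : r ∈ G.reactions)
    (hpos : 0 < ∑ i, w i * ((r.2 i : ℝ) - (r.1 i : ℝ))) :
    ∃ r' ∈ G.reactions, ∑ i, w i * ((r'.2 i : ℝ) - (r'.1 i : ℝ)) < 0 ∧
      0 < ∑ i, w i * ((r'.1 i : ℝ) - (r.1 i : ℝ)) := by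
  classical
  set E := G.reactions.filter (fun s => ∑ i, w i * ((s.2 i : ℝ) - (s.1 i : ℝ)) ≠ 0) with hE
  have hrE : r ∈ E := by rw [hE, Finset.mem_filter]; exact ⟨hr, hpos.ne'⟩
  obtain ⟨r', hr', hmax⟩ := Finset.exists_max_image E (fun s => ∑ i, w i * (s.1 i : ℝ)) ⟨r, hrE⟩
  have hr'2 := hr'
  rw [hE, Finset.mem_filter] at hr'2
  have hmax' : ∀ s ∈ G.reactions, ∑ i, w i * ((s.2 i : ℝ) - (s.1 i : ℝ)) ≠ 0 →
      ∑ i, w i * (s.1 i : ℝ) ≤ ∑ i, w i * (r'.1 i : ℝ) := by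
    intro s hs hs'
    exact hmax s (by rw [hE, Finset.mem_filter]; exact ⟨hs, hs'⟩)
  refine ⟨r', hr'2.1, hG w r' hr'2.1 hr'2.2 hmax', ?_⟩
  have hsum : ∑ i, w i * ((r'.1 i : ℝ) - (r.1 i : ℝ)) =
      ∑ i, w i * (r'.1 i : ℝ) - ∑ i, w i * (r.1 i : ℝ) := by
    rw [← Finset.sum_sub_distrib]
    exact Finset.sum_congr rfl fun i _ => by ring
  rw [hsum, sub_pos]
  by_contra hcon
  push Not at hcon
  have := hG w r hr hpos.ne' (fun s hs hs' => (hmax' s hs hs').trans hcon)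
  linarith only [this, hpos]

/-- The drop lemma for endotactic networks. -/
theorem exists_drop (G : Network d) (hG : G.Endotactic) :
    ∃ c : ℝ, 0 < c ∧ c ≤ 1 ∧ ∀ (p : Fin d → ℝ) (r : (Fin d → ℕ) × (Fin d → ℕ)),
      r ∈ G.reactions → 0 < ∑ i, p i * ((r.2 i : ℝ) - (r.1 i : ℝ)) →
      ∃ r' ∈ G.reactions, 0 < ∑ i, p i * ((r'.1 i : ℝ) - (r.1 i : ℝ)) ∧
        c * (∑ i, p i * ((r.2 i : ℝ) - (r.1 i : ℝ))) ≤
          - ∑ i, p i * ((r'.2 i : ℝ) - (r'.1 i : ℝ)) := by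
  classical
  set F : Finset (Fin d → ℝ) :=
    (G.reactions.image fun r => (fun i => (r.2 i : ℝ) - (r.1 i : ℝ) : Fin d → ℝ)) ∪
    ((G.reactions ×ˢ G.reactions).image
      fun q => (fun i => (q.2.1 i : ℝ) - (q.1.1 i : ℝ) : Fin d → ℝ)) with hF
  obtain ⟨c, hc, hc1, hround⟩ := exists_round F
  refine ⟨c, hc, hc1, fun p r hr hpos => ?_⟩
  obtain ⟨w, hw⟩ := hround p _ hpos
  have hmem1 : ∀ s ∈ G.reactions, (fun i => (s.2 i : ℝ) - (s.1 i : ℝ) : Fin d → ℝ) ∈ F := by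
    intro s hs
    rw [hF]
    exact Finset.mem_union_left _ (Finset.mem_image_of_mem _ hs)
  have hmem2 : ∀ s ∈ G.reactions, ∀ s' ∈ G.reactions,
      (fun i => (s'.1 i : ℝ) - (s.1 i : ℝ) : Fin d → ℝ) ∈ F := by
    intro s hs s' hs'
    rw [hF]
    refine Finset.mem_union_right _ (Finset.mem_image.2 ⟨(s, s'), ?_, rfl⟩)
    exact Finset.mem_product.2 ⟨hs, hs'⟩
  have h1 := (hw _ (hmem1 r hr)).2.2 le_rfl
  obtain ⟨r', hr', hneg, hlev⟩ := endotactic_negative hG w r hr h1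
  refine ⟨r', hr', ?_, ?_⟩
  · have h2 := (hw _ (hmem2 r hr r' hr')).1 hlev
    exact lt_of_lt_of_le (mul_pos hc hpos) h2
  · have h2 := (hw _ (hmem1 r' hr')).2.1 hneg
    linarith only [h2]

end Vale.Agent.P072.H603
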