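import Vale.Agent.P072.H603.TVPerm

/-! # Weakly reversible networks are endotactic; the converse fails -/

set_option linter.all false

namespace Vale.Agent.P072.H603

variable {d : ℕ}

theorem endotactic_of_weaklyReversible (G : Network d) (hG : G.WeaklyReversible) :
    G.Endotactic := by
  intro w r hr hne hmax
  rcases lt_or_gt_of_ne hne with h | h
  · exact h
  · exfalso
    obtain ⟨r', hr', -, hlev, hdrop⟩ := exists_negative G hG w r hr h
    have hN : (0 : ℝ) < (G.complexes.card : ℝ) + 1 := by positivity
    have hneg : 0 < - ∑ i, w i * ((r'.2 i : ℝ) - (r'.1 i : ℝ)) := by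
      have h1 := lt_of_lt_of_le h hdrop
      exact (pos_iff_pos_of_mul_pos h1).1 hN
    have h2 := hmax r' hr' (by linarith)
    have hsum : ∑ i, w i * ((r'.1 i : ℝ) - (r.1 i : ℝ)) =
        ∑ i, w i * (r'.1 i : ℝ) - ∑ i, w i * (r.1 i : ℝ) := by
      rw [← Finset.sum_sub_distrib]
      exact Finset.sum_congr rfl fun i _ => by ring
    linarith

/-- The network `0 → X ← 2X`. -/
def exNet : Network 1 where
  complexes := {fun _ => 0, fun _ => 1, fun _ => 2}
  reactions := {(fun _ => 0, fun _ => 1), (fun _ => 2, fun _ => 1)}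
  source_mem := by
    intro r hr
    simp only [Finset.mem_insert, Finset.mem_singleton] at hr ⊢
    rcases hr with rfl | rfl
    · left; rfl
    · right; right; rfl
  target_mem := by
    intro r hr
    simp only [Finset.mem_insert, Finset.mem_singleton] at hr ⊢
    rcases hr with rfl | rfl <;> (right; left; rfl)
  source_ne_target := by
    intro r hr
    simp only [Finset.mem_insert, Finset.mem_singleton] at hr
    rcases hr with rfl | rfl
    · intro h; exact absurd (congrFun h 0) (by norm_num)
    · intro h; exact absurd (congrFun h 0) (by norm_num)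

theorem exNet_mem (r : (Fin 1 → ℕ) × (Fin 1 → ℕ)) :
    r ∈ exNet.reactions ↔ r = (fun _ => 0, fun _ => 1) ∨ r = (fun _ => 2, fun _ => 1) := by
  simp only [exNet, Finset.mem_insert, Finset.mem_singleton]

theorem exNet_endotactic : exNet.Endotactic := by
  intro w r hr hne hmax
  have h1 := hmax (fun _ => 0, fun _ => 1) ((exNet_mem _).2 (Or.inl rfl))
  have h2 := hmax (fun _ => 2, fun _ => 1) ((exNet_mem _).2 (Or.inr rfl))
  rcases (exNet_mem r).1 hr with rfl | rfl
  · simp only [Finset.univ_unique, Finset.sum_singleton, Nat.cast_one, Nat.cast_zero,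
      sub_zero, mul_one, Nat.cast_ofNat, mul_zero] at hne h1 h2 ⊢
    have h3 := h2 (by intro h; apply hne; linarith)
    rcases lt_or_gt_of_ne hne with h | h
    · exact h
    · linarith
  · simp only [Finset.univ_unique, Finset.sum_singleton, Nat.cast_one, Nat.cast_zero,
      sub_zero, mul_one, Nat.cast_ofNat, mul_zero] at hne h1 h2 ⊢
    have h3 := h1 (by intro h; apply hne; linarith)
    rcases lt_or_gt_of_ne hne with h | h
    · exact h
    · linarith

theorem exNet_not_wr : ¬ exNet.WeaklyReversible := by
  intro h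
  have h1 := h (fun _ => 0, fun _ => 1) ((exNet_mem _).2 (Or.inl rfl))
  -- every path starting at `1` is constant
  have h2 : ∀ z : Fin 1 → ℕ,
      Relation.ReflTransGen (fun y z => (y, z) ∈ exNet.reactions) (fun _ => 1) z →
      z = fun _ => 1 := by
    intro z hz
    induction hz with
    | refl => rfl
    | tail _ hbc ih =>
      subst ih
      rcases (exNet_mem _).1 hbc with h | h
      · exact absurd (congrFun (congrArg Prod.fst h) 0) (by norm_num)
      · exact absurd (congrFun (congrArg Prod.fst h) 0) (by norm_num)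
  exact absurd (congrFun (h2 _ h1) 0) (by norm_num)

/-- The main theorem. -/
theorem main (G : Network d) :
    (G.WeaklyReversible → ∀ (k : (Fin d → ℕ) × (Fin d → ℕ) → ℝ),
      (∀ r ∈ G.reactions, 0 < k r) → ∀ c : Fin d → ℝ, (∀ i, 0 < c i) →
        PermanentOn (G.field k) (G.posClass c)) ∧
    (G.WeaklyReversible → G.Endotactic) ∧
    (G.Endotactic → ∀ c : Fin d → ℝ, (∀ i, 0 < c i) →
      (∀ k : (Fin d → ℕ) × (Fin d → ℕ) → ℝ, (∀ r ∈ G.reactions, 0 < k r) →
        PermanentOn (G.field k) (G.posClass c)) ∧
      (∀ ε : ℝ, 0 < ε → G.UniformlyPermanentOn ε (G.posClass c))) :=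
  ⟨fun hG k hk c hc => Vale.Agent.P072.permanence G hG k hk c hc,
    endotactic_of_weaklyReversible G,
    fun hG c hc => ⟨fun k hk => permanence G hG k hk c hc,
      fun ε hε => tv_permanence G hG ε hε c hc⟩⟩

theorem strict : ∃ H : Network 1, H.Endotactic ∧ ¬ H.WeaklyReversible :=
  ⟨exNet, exNet_endotactic, exNet_not_wr⟩

end Vale.Agent.P072.H603
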