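import Vale.Agent.P072.H603.Drop

/-! # Network lemma and potentials for endotactic networks, uniformly in the rates -/

set_option linter.all false

namespace Vale.Agent.P072.H603

variable {d : ℕ}

/-- Network lemma, uniform in the rates: if the covector `p` is aligned with the
monomials, then `p · f(x) ≤ 0`, with a quantitative version. -/
theorem network_lemma_unif (G : Network d) (hG : G.Endotactic)
    (kmin kmax : ℝ) (hkmin : 0 < kmin) (hkmax : 0 < kmax) :
    ∃ E > 0, ∃ η > 0, ∀ k : (Fin d → ℕ) × (Fin d → ℕ) → ℝ,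
      (∀ r ∈ G.reactions, kmin ≤ k r ∧ k r ≤ kmax) →
      ∀ x p : Fin d → ℝ, (∀ i, 0 < x i) →
      (∀ y ∈ G.complexes, ∀ z ∈ G.complexes,
        0 < ∑ i, p i * ((z i : ℝ) - (y i : ℝ)) →
        E * ∏ i, x i ^ y i ≤ ∏ i, x i ^ z i) →
      (∑ i, p i * G.field k x i ≤ 0) ∧
      (∀ h : ℝ, 0 ≤ h → ∀ r ∈ G.reactions, h ≤ |∑ i, p i * ((r.2 i : ℝ) - (r.1 i : ℝ))| →
        ∀ m : ℝ, 0 ≤ m → (∀ r' ∈ G.reactions, m ≤ ∏ i, x i ^ r'.1 i) →
        ∑ i, p i * G.field k x i ≤ - (η * h * m)) := by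
  classical
  obtain ⟨cd, hcd, hcd1, hdropG⟩ := exists_drop G hG
  set N1 : ℝ := 1 / cd with hN1
  have hN1pos : 0 < N1 := by (clear * - hcd; positivity)
  have hN1ge : 1 ≤ N1 := by rw [hN1, le_div_iff₀ hcd, one_mul]; exact hcd1
  set n1 : ℝ := (G.reactions.card : ℝ) + 1 with hn1
  have hn1pos : 0 < n1 := by (clear * -; positivity)
  set E : ℝ := 2 * n1 * N1 * kmax / kmin with hE
  have hEpos : 0 < E := by (clear * - hkmax hkmin hN1pos hn1pos; positivity)
  refine ⟨E, hEpos, kmin / (2 * N1), by (clear * - hkmin hN1pos; positivity), fun k hkk x p hx halign => ?_⟩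
  have hk : ∀ r ∈ G.reactions, 0 < k r := fun r hr => lt_of_lt_of_le hkmin (hkk r hr).1
  have hkmin' : ∀ r ∈ G.reactions, kmin ≤ k r := fun r hr => (hkk r hr).1
  have hkmax' : ∀ r ∈ G.reactions, k r ≤ kmax := fun r hr => (hkk r hr).2
  set D : (Fin d → ℕ) × (Fin d → ℕ) → ℝ :=
    fun r => ∑ i, p i * ((r.2 i : ℝ) - (r.1 i : ℝ)) with hD
  set M : (Fin d → ℕ) → ℝ := fun y => ∏ i, x i ^ y i with hM
  have hMpos : ∀ y, 0 < M y := fun y => Finset.prod_pos fun i _ => pow_pos (hx i) _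
  set w : (Fin d → ℕ) × (Fin d → ℕ) → ℝ := fun r => k r * M r.1 with hw
  have hwpos : ∀ r ∈ G.reactions, 0 < w r := fun r hr => mul_pos (hk r hr) (hMpos _)
  set NEG : ℝ := ∑ r ∈ G.reactions, w r * max 0 (- D r) with hNEG
  have hNEGnn : 0 ≤ NEG := Finset.sum_nonneg fun r hr =>
    mul_nonneg (hwpos r hr).le (le_max_left _ _)
  have hterm : ∀ r ∈ G.reactions, w r * (- D r) ≤ NEG := by
    intro r hr
    calc w r * (- D r) ≤ w r * max 0 (- D r) :=
          mul_le_mul_of_nonneg_left (le_max_right _ _) (hwpos r hr).le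
      _ ≤ NEG := Finset.single_le_sum (f := fun r => w r * max 0 (- D r))
          (fun r hr => mul_nonneg (hwpos r hr).le (le_max_left _ _)) hr
  -- the negative partner of a positive reaction
  have hpartner : ∀ r ∈ G.reactions, 0 < D r → ∃ r' ∈ G.reactions,
      E * M r.1 ≤ M r'.1 ∧ D r ≤ N1 * (- D r') ∧ 0 < - D r' := by
    intro r hr hDr
    obtain ⟨r', hr', hlev, hdrop0⟩ := hdropG p r hr hDr
    have hdrop : D r ≤ N1 * (- D r') := by
      have h1 : N1 * (cd * D r) ≤ N1 * (- D r') := mul_le_mul_of_nonneg_left hdrop0 hN1pos.le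
      have h2 : N1 * (cd * D r) = D r := by rw [hN1]; (clear * - hcd; field_simp)
      linarith only [h1, h2]
    refine ⟨r', hr', ?_, hdrop, ?_⟩
    · exact halign r.1 (G.source_mem r hr) r'.1 (G.source_mem r' hr') hlev
    · have : 0 < N1 * (- D r') := lt_of_lt_of_le hDr hdrop
      exact (pos_iff_pos_of_mul_pos this).1 hN1pos
  have hpos : ∀ r ∈ G.reactions, w r * D r ≤ 1 / (2 * n1) * NEG - w r * max 0 (- D r) := by
    intro r hr
    rcases le_or_gt (D r) 0 with hle | hgt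
    · have : max 0 (- D r) = - D r := max_eq_right (by linarith only [hle])
      rw [this]
      have : 0 ≤ 1 / (2 * n1) * NEG := by (clear * - hNEGnn; positivity)
      linarith only [this]
    · have h0 : max 0 (- D r) = 0 := max_eq_left (by linarith only [hgt])
      rw [h0, mul_zero, sub_zero]
      obtain ⟨r', hr', hMM, hdrop, hneg⟩ := hpartner r hr hgt
      have h1 : w r ≤ kmax * M r.1 := mul_le_mul_of_nonneg_right (hkmax' r hr) (hMpos _).le
      have h2 : M r.1 ≤ M r'.1 / E := by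
        rw [le_div_iff₀ hEpos]; linarith only [hMM]
      have h3 : kmin * M r'.1 ≤ w r' := mul_le_mul_of_nonneg_right (hkmin' r' hr') (hMpos _).le
      have h4 : w r' * (- D r') ≤ NEG := hterm r' hr'
      calc w r * D r ≤ (kmax * M r.1) * (N1 * (- D r')) :=
            mul_le_mul h1 hdrop hgt.le (by have := hMpos r.1; (clear * - hkmax this; positivity))
        _ ≤ (kmax * (M r'.1 / E)) * (N1 * (- D r')) := by
            apply mul_le_mul_of_nonneg_right
            · exact mul_le_mul_of_nonneg_left h2 hkmax.le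
            · (clear * - hneg hN1pos; positivity)
        _ = 1 / (2 * n1) * ((kmin * M r'.1) * (- D r')) := by
            rw [hE]; (clear * - hkmax hN1pos hkmin hn1pos; field_simp)
        _ ≤ 1 / (2 * n1) * (w r' * (- D r')) := by
            apply mul_le_mul_of_nonneg_left _ (by (clear * -; positivity))
            exact mul_le_mul_of_nonneg_right h3 hneg.le
        _ ≤ 1 / (2 * n1) * NEG := mul_le_mul_of_nonneg_left h4 (by (clear * -; positivity))
  have hmain : ∑ i, p i * G.field k x i ≤ - (1 / 2) * NEG := by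
    rw [sum_mul_field]
    have hsum : ∑ r ∈ G.reactions, w r * D r ≤
        ∑ r ∈ G.reactions, (1 / (2 * n1) * NEG - w r * max 0 (- D r)) :=
      Finset.sum_le_sum hpos
    rw [Finset.sum_sub_distrib, Finset.sum_const, nsmul_eq_mul] at hsum
    have hcard : (G.reactions.card : ℝ) * (1 / (2 * n1) * NEG) ≤ 1 / 2 * NEG := by
      have h5 : (G.reactions.card : ℝ) ≤ n1 := by rw [hn1]; linarith only []
      calc (G.reactions.card : ℝ) * (1 / (2 * n1) * NEG) ≤ n1 * (1 / (2 * n1) * NEG) :=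
            mul_le_mul_of_nonneg_right h5 (by (clear * - hNEGnn; positivity))
        _ = 1 / 2 * NEG := by (clear * - hn1pos; field_simp)
    have : ∑ r ∈ G.reactions, w r * D r ≤ - (1 / 2) * NEG := by linarith only [hsum, hcard]
    exact this
  refine ⟨by linarith only [hNEGnn, hmain], fun h hh r hr hhr m hm hmM => ?_⟩
  -- lower bound for NEG
  have hkey : kmin * m * (h / N1) ≤ NEG := by
    rcases lt_trichotomy (D r) 0 with hneg | hzero | hposD
    · have habs : |D r| = - D r := abs_of_neg hneg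
      have h1 : h ≤ - D r := by rw [← habs]; exact hhr
      calc kmin * m * (h / N1) ≤ kmin * m * h := by
            apply mul_le_mul_of_nonneg_left _ (by (clear * - hkmin hm; positivity))
            exact div_le_self hh hN1ge
        _ ≤ w r * (- D r) := by
            apply mul_le_mul _ h1 hh (hwpos r hr).le
            exact mul_le_mul (hkmin' r hr) (hmM r hr) hm (hk r hr).le
        _ ≤ NEG := hterm r hr
    · have : |D r| = 0 := by rw [hzero, abs_zero]
      have h1 : h ≤ 0 := by rw [← this]; exact hhr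
      have h2 : h = 0 := le_antisymm h1 hh
      rw [h2]; simpa only [zero_div, mul_zero, ge_iff_le] using hNEGnn
    · have habs : |D r| = D r := abs_of_pos hposD
      have h1 : h ≤ D r := by rw [← habs]; exact hhr
      obtain ⟨r', hr', _, hdrop, hneg⟩ := hpartner r hr hposD
      have h2 : h / N1 ≤ - D r' := by
        rw [div_le_iff₀ hN1pos]; linarith only [hhr, habs, hdrop]
      calc kmin * m * (h / N1) ≤ w r' * (- D r') := by
            apply mul_le_mul _ h2 (by (clear * - hh hN1pos; positivity)) (hwpos r' hr').le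
            exact mul_le_mul (hkmin' r' hr') (hmM r' hr') hm (hk r' hr').le
        _ ≤ NEG := hterm r' hr'
  calc ∑ i, p i * G.field k x i ≤ - (1 / 2) * NEG := hmain
    _ ≤ - (1 / 2) * (kmin * m * (h / N1)) := by linarith only [hkey]
    _ = - (kmin / (2 * N1) * h * m) := by (clear * - hN1pos hkmin; field_simp)

open Finset in
/-- Existence of potentials uniform in the rates. -/
theorem isUPotential_of_subset (G : Network d) (hG : G.Endotactic)
    (kmin kmax : ℝ) (hkmin : 0 < kmin) (hkmax : 0 < kmax)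
    (I : Finset (Fin d)) (κ B : ℝ) (hκ : 0 < κ)
    (hsub : ∀ (N : ℕ) (δ : ℝ), ∃ (V : (Fin d → ℝ) → ℝ) (C : ℝ), 0 ≤ C ∧
      (∀ x, (∀ i ∈ I, 0 < x i) → ∑ i ∈ I, x i * (Real.log (x i) - C) ≤ V x ∧
        V x ≤ ∑ i ∈ I, x i * (Real.log (x i) + C)) ∧
      (∀ x, (∀ i ∈ I, 0 < x i) → ∀ ε > 0, ∃ p : Fin d → ℝ, (∀ i ∉ I, p i = 0) ∧
       (∀ x', (∀ i ∈ I, 0 < x' i) → V x - ε + ∑ i, p i * (x' i - x i) ≤ V x') ∧
       (∀ i ∈ I, |p i - Real.log (x i)| ≤ C) ∧
       (∀ v : Fin d → ℤ, (∀ i, |v i| ≤ N) → 0 < ∑ i, (v i : ℝ) * p i →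
          δ < ∑ i ∈ I, (v i : ℝ) * Real.log (x i)))) :
    ∃ (V : (Fin d → ℝ) → ℝ) (C η : ℝ), IsUPotential G kmin kmax I κ B V C η := by
  classical
  obtain ⟨E, hE, η, hη, hnet⟩ := network_lemma_unif G hG kmin kmax hkmin hkmax
  obtain ⟨N, hN⟩ := exists_exponent_bound G
  set L : ℝ := |Real.log κ| + |Real.log B| with hL
  have hLnn : 0 ≤ L := by (clear * -; positivity)
  obtain ⟨V, C, hC, hbd, hgrad⟩ := hsub N (Real.log E + d * (N * L))
  refine ⟨V, C, η, hC, hη, fun x hx => (hbd x hx).1, fun x hx => (hbd x hx).2, ?_⟩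
  intro x hx hxI ε hε
  obtain ⟨p, hp0, hp1, hp2, hp3⟩ := hgrad x (fun i _ => hx i) ε hε
  refine ⟨p, hp0, hp1, hp2, fun k hk => ?_⟩
  apply hnet k hk x p hx
  intro y hy z hz hpos
  apply monomial_le_of_align x hx y z E hE
  have hv : ∀ i, |((z i : ℤ) - (y i : ℤ))| ≤ (N : ℤ) := by
    intro i
    have h1 := hN y hy i
    have h2 := hN z hz i
    rw [abs_le]
    constructor <;> omega
  have hpos' : 0 < ∑ i, ((((z i : ℤ) - (y i : ℤ) : ℤ)) : ℝ) * p i := by
    have : ∑ i, ((((z i : ℤ) - (y i : ℤ) : ℤ)) : ℝ) * p i =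
        ∑ i, p i * ((z i : ℝ) - (y i : ℝ)) := by
      refine Finset.sum_congr rfl fun i _ => ?_
      push_cast; ring
    rw [this]; exact hpos
  have h3 := hp3 (fun i => (z i : ℤ) - (y i : ℤ)) hv hpos'
  have h4 : ∑ i ∈ I, ((((z i : ℤ) - (y i : ℤ) : ℤ)) : ℝ) * Real.log (x i) =
      ∑ i ∈ I, ((z i : ℝ) - (y i : ℝ)) * Real.log (x i) := by
    refine Finset.sum_congr rfl fun i _ => ?_
    push_cast; ring
  rw [h4] at h3
  have h5 : ∑ i, ((z i : ℝ) - (y i : ℝ)) * Real.log (x i) =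
      ∑ i ∈ I, ((z i : ℝ) - (y i : ℝ)) * Real.log (x i) +
      ∑ i ∈ Iᶜ, ((z i : ℝ) - (y i : ℝ)) * Real.log (x i) :=
    (Finset.sum_add_sum_compl I _).symm
  have h6 : |∑ i ∈ Iᶜ, ((z i : ℝ) - (y i : ℝ)) * Real.log (x i)| ≤ d * (N * L) := by
    calc |∑ i ∈ Iᶜ, ((z i : ℝ) - (y i : ℝ)) * Real.log (x i)|
        ≤ ∑ i ∈ Iᶜ, |((z i : ℝ) - (y i : ℝ)) * Real.log (x i)| :=
          Finset.abs_sum_le_sum_abs _ _
      _ ≤ ∑ i ∈ Iᶜ, (N : ℝ) * L := by
          apply Finset.sum_le_sum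
          intro i hi
          rw [abs_mul]
          have hi' : i ∉ I := by simpa using hi
          have h7 : |(z i : ℝ) - (y i : ℝ)| ≤ N := by
            have := hv i
            exact_mod_cast this
          exact mul_le_mul h7 (abs_log_le_of_mem hκ (hxI i hi').1 (hxI i hi').2)
            (abs_nonneg _) (by (clear * -; positivity))
      _ = (Iᶜ.card : ℝ) * (N * L) := by rw [Finset.sum_const, nsmul_eq_mul]
      _ ≤ d * (N * L) := by
          apply mul_le_mul_of_nonneg_right _ (by (clear * -; positivity))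
          have : Iᶜ.card ≤ d := by
            simpa only [Fintype.card_fin] using Finset.card_le_univ (Iᶜ : Finset (Fin d))
          exact_mod_cast this
  have h8 := neg_abs_le (∑ i ∈ Iᶜ, ((z i : ℝ) - (y i : ℝ)) * Real.log (x i))
  rw [h5]
  linarith only [h3, h6, h8]


theorem exists_upotential (G : Network d) (hG : G.Endotactic)
    (kmin kmax : ℝ) (hkmin : 0 < kmin) (hkmax : 0 < kmax)
    (I : Finset (Fin d)) (κ B : ℝ) (hκ : 0 < κ) :
    ∃ (V : (Fin d → ℝ) → ℝ) (C η : ℝ), IsUPotential G kmin kmax I κ B V C η :=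
  isUPotential_of_subset G hG kmin kmax hkmin hkmax I κ B hκ (exists_potential_subset I)

theorem exists_potential (G : Network d) (hG : G.Endotactic)
    (k : (Fin d → ℕ) × (Fin d → ℕ) → ℝ) (hk : ∀ r ∈ G.reactions, 0 < k r)
    (I : Finset (Fin d)) (κ B : ℝ) (hκ : 0 < κ) :
    ∃ (V : (Fin d → ℝ) → ℝ) (C η : ℝ), IsPotential G k I κ B V C η := by
  obtain ⟨kmin, hkmin, hkmin'⟩ : ∃ kmin > 0, ∀ r ∈ G.reactions, kmin ≤ k r := by
    rcases G.reactions.eq_empty_or_nonempty with he | hne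
    · exact ⟨1, one_pos, by simp [he]⟩
    · obtain ⟨r, hr, hmin⟩ := Finset.exists_min_image G.reactions k hne
      exact ⟨k r, hk r hr, hmin⟩
  obtain ⟨kmax, hkmax, hkmax'⟩ : ∃ kmax > 0, ∀ r ∈ G.reactions, k r ≤ kmax := by
    rcases G.reactions.eq_empty_or_nonempty with he | hne
    · exact ⟨1, one_pos, by simp [he]⟩
    · obtain ⟨r, hr, hmax⟩ := Finset.exists_max_image G.reactions k hne
      exact ⟨k r, hk r hr, hmax⟩
  obtain ⟨V, C, η, hV⟩ := exists_upotential G hG kmin kmax hkmin hkmax I κ B hκ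
  refine ⟨V, C, η, hV.C_nonneg, hV.η_pos, hV.lower, hV.upper, fun x hx hxI ε hε => ?_⟩
  obtain ⟨p, h1, h2, h3, h4⟩ := hV.grad x hx hxI ε hε
  obtain ⟨h5, h6⟩ := h4 k (fun r hr => ⟨hkmin' r hr, hkmax' r hr⟩)
  exact ⟨p, h1, h2, h3, h5, h6⟩

end Vale.Agent.P072.H603
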