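import Vale.Agent.P072.H603.Net

/-! # Permanence of endotactic mass-action systems (constant rates) -/

set_option linter.all false

namespace Vale.Agent.P072.H603

variable {d : ℕ}

/-- The set of positive segments on `[0,t]` with a bound and a lower bound at time `0`
always has one coordinate of `I` above a fixed level. -/
theorem apriori_low (G : Network d) (hG : G.Endotactic)
    (k : (Fin d → ℕ) × (Fin d → ℕ) → ℝ) (hk : ∀ r ∈ G.reactions, 0 < k r)
    (B ε₀ : ℝ) (hε₀ : 0 < ε₀) :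
    ∀ (n : ℕ) (I : Finset (Fin d)), I.Nonempty → Iᶜ.card < n →
      ∃ κ > 0, ∀ (x : ℝ → Fin d → ℝ) (t : ℝ), 0 ≤ t → Seg (G.field k) x 0 t →
        (∀ i, ε₀ ≤ x 0 i) → (∀ r ∈ Set.Icc 0 t, ∀ i, x r i ≤ B) → ∃ i ∈ I, κ ≤ x t i := by
  intro n
  induction n with
  | zero => intro I _ h; exact absurd h (Nat.not_lt_zero _)
  | succ n ih =>
    intro I hI hIn
    have hstep : ∀ j : Fin d, ∃ κ > 0, j ∉ I → ∀ (x : ℝ → Fin d → ℝ) (t : ℝ), 0 ≤ t →
        Seg (G.field k) x 0 t → (∀ i, ε₀ ≤ x 0 i) →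
        (∀ r ∈ Set.Icc 0 t, ∀ i, x r i ≤ B) → ∃ i ∈ insert j I, κ ≤ x t i := by
      intro j
      by_cases hj : j ∈ I
      · exact ⟨1, one_pos, fun h => absurd hj h⟩
      · have hcard : (insert j I)ᶜ.card < n := by
          have h1 : (insert j I)ᶜ ⊂ Iᶜ := by
            rw [Finset.compl_ssubset_compl]
            exact Finset.ssubset_insert hj
          have := Finset.card_lt_card h1
          omega
        obtain ⟨κ, hκ, h⟩ := ih (insert j I) (Finset.insert_nonempty _ _) hcard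
        exact ⟨κ, hκ, fun _ => h⟩
    choose κf hκf hκ using hstep
    obtain ⟨κ', hκ', hκ'le⟩ := exists_pos_le κf hκf
    obtain ⟨V, C, η, hV⟩ := exists_potential G hG k hk I κ' B hκ'
    -- choose ε
    obtain ⟨ε, hε0, hε1, hε2, hε3⟩ : ∃ ε : ℝ, 0 < ε ∧ ε < κ' ∧ ε ≤ ε₀ ∧ Real.log ε + C < 0 := by
      obtain ⟨e, he, hle⟩ := exists_pos_le (ι := Fin 3) ![κ' / 2, ε₀, Real.exp (-C - 1)] (by
        intro i; fin_cases i
        · show 0 < κ' / 2; linarith only [hκ']
        · exact hε₀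
        · exact Real.exp_pos _)
      refine ⟨e, he, ?_, hle 1, ?_⟩
      · have := hle 0
        simp only [Matrix.cons_val_zero] at this
        linarith only [he, this]
      · have h2 : e ≤ Real.exp (-C - 1) := hle 2
        have h3 : Real.log e ≤ -C - 1 := (Real.log_le_iff_le_exp he).mpr h2
        linarith only [h3]
    obtain ⟨κ, hκ0, hex⟩ := exit_lemma hV hε0 hε3
    refine ⟨κ, hκ0, ?_⟩
    intro x t ht hx hx0 hxB
    apply hex x 0 t ht hx
    · intro r hr hrI j hj
      refine ⟨?_, hxB r hr j⟩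
      obtain ⟨i, hi, hi'⟩ := hκ j hj x r hr.1 (hx.mono le_rfl hr.2) hx0
        (fun r' hr' => hxB r' ⟨hr'.1, hr'.2.trans hr.2⟩)
      rcases Finset.mem_insert.mp hi with h | h
      · rw [h] at hi'
        exact (hκ'le j).trans hi'
      · exfalso
        have h1 := hrI i h
        have h2 := hκ'le j
        linarith only [hε1, hi', h1, h2]
    · obtain ⟨i, hi⟩ := hI
      exact ⟨i, hi, hε2.trans (hx0 i)⟩

/-- Upper a-priori bound. -/
theorem apriori_up (G : Network d) (hG : G.Endotactic)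
    (k : (Fin d → ℕ) × (Fin d → ℕ) → ℝ) (hk : ∀ r ∈ G.reactions, 0 < k r) (x₀ : Fin d → ℝ) :
    ∃ B, ∀ (x : ℝ → Fin d → ℝ) (t : ℝ), 0 ≤ t → Seg (G.field k) x 0 t → x 0 = x₀ →
      ∀ i, x t i ≤ B := by
  obtain ⟨V, C, η, hV⟩ := exists_potential G hG k hk Finset.univ 1 1 one_pos
  refine ⟨max (Real.exp (C + 1)) (V x₀ + d * Real.exp C), ?_⟩
  intro x t ht hx hx0 i
  have h1 := hV.decrease ht hx (fun r _ i hi => absurd (Finset.mem_univ i) hi)
  rw [hx0] at h1
  have hpos := hx.2 t ⟨ht, le_rfl⟩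
  exact bound_of_sum C _ (x t) hpos ((hV.lower (x t) (fun i _ => hpos i)).trans h1) i

/-- Two-sided a-priori bound. -/
theorem apriori_box (G : Network d) (hG : G.Endotactic)
    (k : (Fin d → ℕ) × (Fin d → ℕ) → ℝ) (hk : ∀ r ∈ G.reactions, 0 < k r) (x₀ : Fin d → ℝ)
    (hx₀ : ∀ i, 0 < x₀ i) :
    ∃ κ > 0, ∃ B, ∀ (x : ℝ → Fin d → ℝ) (t : ℝ), 0 ≤ t → Seg (G.field k) x 0 t → x 0 = x₀ →
      ∀ i, κ ≤ x t i ∧ x t i ≤ B := by
  obtain ⟨B, hB⟩ := apriori_up G hG k hk x₀
  obtain ⟨ε₀, hε₀, hε₀le⟩ := exists_pos_le x₀ hx₀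
  have h1 : ∀ i : Fin d, ∃ κ > 0, ∀ (x : ℝ → Fin d → ℝ) (t : ℝ), 0 ≤ t →
      Seg (G.field k) x 0 t → (∀ i, ε₀ ≤ x 0 i) → (∀ r ∈ Set.Icc 0 t, ∀ i, x r i ≤ B) →
      κ ≤ x t i := by
    intro i
    obtain ⟨κ, hκ, h⟩ := apriori_low G hG k hk B ε₀ hε₀ _ {i} (Finset.singleton_nonempty i)
      (Nat.lt_succ_self _)
    refine ⟨κ, hκ, fun x t ht hx hx0 hxB => ?_⟩
    obtain ⟨j, hj, hj'⟩ := h x t ht hx hx0 hxB
    rw [Finset.mem_singleton] at hj
    rw [hj] at hj'
    exact hj'
  choose κf hκf hκ using h1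
  obtain ⟨κ, hκ0, hκle⟩ := exists_pos_le κf hκf
  refine ⟨κ, hκ0, B, fun x t ht hx hx0 i => ⟨?_, hB x t ht hx hx0 i⟩⟩
  exact (hκle i).trans (hκ i x t ht hx (fun j => by rw [hx0]; exact hε₀le j)
    (fun r hr j => hB x r hr.1 (hx.mono le_rfl hr.2) hx0 j))

/-- Global solutions are trapped in a box depending on the initial point. -/
theorem global_box (G : Network d) (hG : G.Endotactic)
    (k : (Fin d → ℕ) × (Fin d → ℕ) → ℝ) (hk : ∀ r ∈ G.reactions, 0 < k r) (x₀ : Fin d → ℝ)
    (hx₀ : ∀ i, 0 < x₀ i) :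
    (∃ z, IsGlobalSolution (G.field k) z ∧ z 0 = x₀) ∧
    (∀ b > 0, ∀ x, IsSolutionOn (G.field k) x b → x 0 = x₀ →
      ∀ z, IsGlobalSolution (G.field k) z → z 0 = x₀ → Set.EqOn x z (Set.Ico 0 b)) ∧
    ∃ κ > 0, ∃ B, ∀ x, IsGlobalSolution (G.field k) x → x 0 = x₀ →
      ∀ t ≥ 0, ∀ i, κ ≤ x t i ∧ x t i ≤ B := by
  obtain ⟨κ, hκ, B, hbox⟩ := apriori_box G hG k hk x₀ hx₀
  obtain ⟨⟨z, hz, hz0, hzb⟩, huniq⟩ := global_of_apriori (G.field k) (field_contDiff G k) x₀ hx₀
    κ B hκ (by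
      intro b hb x hx hx0 hpos t ht
      exact hbox x t ht.1 (hx.seg ht.2 (fun r hr => hpos r ⟨hr.1, lt_of_le_of_lt hr.2 ht.2⟩)) hx0)
  refine ⟨⟨z, hz, hz0⟩, huniq, κ, hκ, B, ?_⟩
  intro x hx hx0 t ht i
  have h1 := huniq (t + 1) (by linarith) x (hx.isSolutionOn _) hx0 z hz hz0
    (⟨ht, by linarith⟩ : t ∈ Set.Ico 0 (t + 1))
  rw [h1]
  exact hzb t ht i

/-- Uniform eventual upper bound. -/
theorem eventual_up (G : Network d) (hG : G.Endotactic)
    (k : (Fin d → ℕ) × (Fin d → ℕ) → ℝ) (hk : ∀ r ∈ G.reactions, 0 < k r)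
    (c : Fin d → ℝ) (hc : ∀ i, 0 < c i) :
    ∃ B, ∀ x, IsGlobalSolution (G.field k) x → x 0 ∈ G.posClass c →
      ∃ t₀ ≥ 0, ∀ t ≥ t₀, ∀ i, x t i ≤ B := by
  obtain ⟨V, C, η, hV⟩ := exists_potential G hG k hk Finset.univ 1 1 one_pos
  refine ⟨max (Real.exp (C + 1)) (V c + 1 + d * Real.exp C), ?_⟩
  intro x hx hx0
  obtain ⟨_, _, κ, hκ, B, hbox⟩ := global_box G hG k hk (x 0) hx0.2
  have hbx := hbox x hx rfl
  have hpos : ∀ r ≥ 0, ∀ i, 0 < x r i := fun r hr i => lt_of_lt_of_le hκ (hbx r hr i).1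
  have hseg : ∀ s t, 0 ≤ s → Seg (G.field k) x s t := fun s t hs => hx.seg hs hpos
  have hreg : ∀ s t : ℝ, ∀ r ∈ Set.Icc s t, ∀ i ∉ (Finset.univ : Finset (Fin d)),
      1 ≤ x r i ∧ x r i ≤ 1 := fun s t r _ i hi => absurd (Finset.mem_univ i) hi
  have hcls : ∀ t ≥ 0, x t - c ∈ G.stoich := by
    intro t ht
    have h1 := (hseg 0 t le_rfl).sub_mem ht
    have h2 := G.stoich.add_mem h1 hx0.1
    have : x t - c = x t - x 0 + (x 0 - c) := by abel
    rw [this]; exact h2
  have hex : ∃ t₀ ≥ 0, V (x t₀) ≤ V c + 1 := by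
    by_contra hcon
    push Not at hcon
    obtain ⟨Mc, hMc⟩ : ∃ Mc, ∀ i, |c i| ≤ Mc := by
      refine ⟨∑ i, |c i|, fun i => ?_⟩
      exact Finset.single_le_sum (f := fun i => |c i|) (fun i _ => abs_nonneg _) (Finset.mem_univ i)
    obtain ⟨h, hh, hlarge⟩ := exists_reaction_large G (|B| + Mc)
    obtain ⟨m, hm, hmon⟩ := exists_monomial_lower G κ hκ
    have hdec : ∀ t ≥ (0 : ℝ), V (x t) ≤ V (x 0) - (η * h * m) * (t - 0) := by
      intro t ht
      apply hV.decrease_strict ht (hseg 0 t le_rfl) (hreg 0 t) hh.le hm.le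
      · intro r hr r' hr'
        exact hmon (x r) (fun i => (hbx r hr.1 i).1) r' hr'
      · intro r hr p _ h2 _
        apply hlarge (x r - c) (hcls r hr.1)
        · intro i
          have h5 := hbx r hr.1 i
          have h6 := hMc i
          have h7 : |x r i| ≤ |B| := by
            rw [abs_of_pos (hpos r hr.1 i)]
            exact h5.2.trans (le_abs_self B)
          calc |(x r - c) i| = |x r i - c i| := rfl
            _ ≤ |x r i| + |c i| := abs_sub _ _
            _ ≤ |B| + Mc := add_le_add h7 h6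
        · have h5 := h2 c (fun i _ => hc i)
          have h6 := hcon r hr.1
          have h7 : ∑ i, p i * (x r - c) i = - ∑ i, p i * (c i - x r i) := by
            rw [← Finset.sum_neg_distrib]
            refine Finset.sum_congr rfl fun i _ => ?_
            rw [Pi.sub_apply]; ring
          rw [h7]
          linarith
    have hρ : 0 < η * h * m := mul_pos (mul_pos hV.η_pos hh) hm
    refine no_linear_decrease hρ (s := 0) (v := fun t => V (x t)) (A := -(d * Real.exp C))
      hdec ?_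
    intro t ht
    exact (sum_ge Finset.univ C (x t) (fun i _ => hpos t ht i)).trans
      (hV.lower (x t) (fun i _ => hpos t ht i))
  obtain ⟨t₀, ht₀, hVt₀⟩ := hex
  refine ⟨t₀, ht₀, fun t ht i => ?_⟩
  have h1 := hV.decrease ht (hseg t₀ t ht₀) (hreg t₀ t)
  have hpt := hpos t (ht₀.trans ht)
  exact bound_of_sum C _ (x t) hpt
    (((hV.lower (x t) (fun i _ => hpt i)).trans h1).trans hVt₀) i

/-- Uniform eventual lower bounds, by downward induction. -/
theorem eventual_low (G : Network d) (hG : G.Endotactic)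
    (k : (Fin d → ℕ) × (Fin d → ℕ) → ℝ) (hk : ∀ r ∈ G.reactions, 0 < k r)
    (c : Fin d → ℝ) (hc : ∀ i, 0 < c i) (B : ℝ)
    (hB : ∀ x, IsGlobalSolution (G.field k) x → x 0 ∈ G.posClass c →
      ∃ t₀ ≥ 0, ∀ t ≥ t₀, ∀ i, x t i ≤ B) :
    ∀ (n : ℕ) (I : Finset (Fin d)), I.Nonempty → Iᶜ.card < n →
      ∃ κ > 0, ∀ x, IsGlobalSolution (G.field k) x → x 0 ∈ G.posClass c →
        ∃ t₀ ≥ 0, ∀ t ≥ t₀, ∃ i ∈ I, κ ≤ x t i := by
  intro n
  induction n with
  | zero => intro I _ h; exact absurd h (Nat.not_lt_zero _)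
  | succ n ih =>
    intro I hI hIn
    have hstep : ∀ j : Fin d, ∃ κ > 0, j ∉ I → ∀ x, IsGlobalSolution (G.field k) x →
        x 0 ∈ G.posClass c → ∃ t₀ ≥ 0, ∀ t ≥ t₀, ∃ i ∈ insert j I, κ ≤ x t i := by
      intro j
      by_cases hj : j ∈ I
      · exact ⟨1, one_pos, fun h => absurd hj h⟩
      · have hcard : (insert j I)ᶜ.card < n := by
          have h1 : (insert j I)ᶜ ⊂ Iᶜ := by
            rw [Finset.compl_ssubset_compl]
            exact Finset.ssubset_insert hj
          have := Finset.card_lt_card h1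
          omega
        obtain ⟨κ, hκ, h⟩ := ih (insert j I) (Finset.insert_nonempty _ _) hcard
        exact ⟨κ, hκ, fun _ => h⟩
    choose κf hκf hκ using hstep
    obtain ⟨κ', hκ', hκ'le⟩ := exists_pos_le κf hκf
    obtain ⟨V, C, η, hV⟩ := exists_potential G hG k hk I κ' B hκ'
    obtain ⟨cm, hcm0, hcm⟩ := exists_pos_le c hc
    -- choose ε
    obtain ⟨ε, hε0, hε1, hε2, hε3, hε4⟩ : ∃ ε : ℝ, 0 < ε ∧ ε < κ' ∧ ε ≤ cm / 2 ∧
        Real.log ε + C < 0 ∧ Real.log ε + C ≤ -(1 / cm) := by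
      obtain ⟨e, he, hle⟩ := exists_pos_le (ι := Fin 4)
        ![κ' / 2, cm / 2, Real.exp (-C - 1), Real.exp (-C - 1 / cm)] (by
        intro i; fin_cases i
        · show 0 < κ' / 2; linarith only [hκ']
        · show 0 < cm / 2; linarith only [hcm0]
        · exact Real.exp_pos _
        · exact Real.exp_pos _)
      refine ⟨e, he, ?_, hle 1, ?_, ?_⟩
      · have := hle 0
        simp only [Matrix.cons_val_zero] at this
        linarith only [he, this]
      · have h2 : e ≤ Real.exp (-C - 1) := hle 2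
        have h3 : Real.log e ≤ -C - 1 := (Real.log_le_iff_le_exp he).mpr h2
        linarith only [h3]
      · have h2 : e ≤ Real.exp (-C - 1 / cm) := hle 3
        have h3 : Real.log e ≤ -C - 1 / cm := (Real.log_le_iff_le_exp he).mpr h2
        linarith only [h3]
    obtain ⟨κ, hκ0, hex⟩ := exit_lemma hV hε0 hε3
    refine ⟨κ, hκ0, ?_⟩
    intro x hx hx0
    obtain ⟨_, _, κx, hκx, Bx, hbox⟩ := global_box G hG k hk (x 0) hx0.2
    have hbx := hbox x hx rfl
    have hpos : ∀ r ≥ 0, ∀ i, 0 < x r i := fun r hr i => lt_of_lt_of_le hκx (hbx r hr i).1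
    have hseg : ∀ s t, 0 ≤ s → Seg (G.field k) x s t := fun s t hs => hx.seg hs hpos
    have hcls : ∀ t ≥ 0, x t - c ∈ G.stoich := by
      intro t ht
      have h1 := (hseg 0 t le_rfl).sub_mem ht
      have h2 := G.stoich.add_mem h1 hx0.1
      have : x t - c = x t - x 0 + (x 0 - c) := by abel
      rw [this]; exact h2
    -- a common time after which all earlier bounds hold
    obtain ⟨t₁, ht₁, hall⟩ : ∃ t₁ ≥ (0 : ℝ), ∀ t ≥ t₁, (∀ i, x t i ≤ B) ∧
        ∀ j ∉ I, ∃ i ∈ insert j I, κf j ≤ x t i := by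
      obtain ⟨tB, htB, hBt⟩ := hB x hx hx0
      have h1 : ∀ j : Fin d, ∃ tj : ℝ, j ∉ I → ∀ t ≥ tj, ∃ i ∈ insert j I, κf j ≤ x t i := by
        intro j
        by_cases hj : j ∈ I
        · exact ⟨0, fun h => absurd hj h⟩
        · obtain ⟨tj, _, h⟩ := hκ j hj x hx hx0
          exact ⟨tj, fun _ => h⟩
      choose tj htj using h1
      refine ⟨tB + ∑ j, |tj j|, by (clear * - htB; positivity), fun t ht => ⟨?_, ?_⟩⟩
      · apply hBt t
        have : 0 ≤ ∑ j, |tj j| := Finset.sum_nonneg fun _ _ => abs_nonneg _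
        linarith only [ht, this]
      · intro j hj
        apply htj j hj t
        have h2 : |tj j| ≤ ∑ j, |tj j| :=
          Finset.single_le_sum (f := fun j => |tj j|) (fun i _ => abs_nonneg _)
            (Finset.mem_univ j)
        have h3 := le_abs_self (tj j)
        linarith only [htB, ht, h2, h3]
    have hreg' : ∀ r ≥ t₁, (∀ i ∈ I, x r i ≤ ε) → ∀ i ∉ I, κ' ≤ x r i ∧ x r i ≤ B := by
      intro r hr hrI j hj
      obtain ⟨h1, h2⟩ := hall r hr
      refine ⟨?_, h1 j⟩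
      obtain ⟨i, hi, hi'⟩ := h2 j hj
      rcases Finset.mem_insert.mp hi with h | h
      · rw [h] at hi'
        exact (hκ'le j).trans hi'
      · exfalso
        have h1 := hrI i h
        have h2 := hκ'le j
        linarith only [hε1, hi', h1, h2]
    have hvisit : ∃ s ≥ t₁, ∃ i ∈ I, ε ≤ x s i := by
      by_contra hcon
      push Not at hcon
      obtain ⟨Mc, hMc⟩ : ∃ Mc, ∀ i, |c i| ≤ Mc := by
        refine ⟨∑ i, |c i|, fun i => ?_⟩
        exact Finset.single_le_sum (f := fun i => |c i|) (fun i _ => abs_nonneg _)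
          (Finset.mem_univ i)
      obtain ⟨h, hh, hlarge⟩ := exists_reaction_large G (|Bx| + Mc)
      obtain ⟨m, hm, hmon⟩ := exists_monomial_lower G κx hκx
      have hdec : ∀ t ≥ t₁, V (x t) ≤ V (x t₁) - (η * h * m) * (t - t₁) := by
        intro t ht
        apply hV.decrease_strict ht (hseg t₁ t ht₁) _ hh.le hm.le
        · intro r hr r' hr'
          exact hmon (x r) (fun i => (hbx r (ht₁.trans hr.1) i).1) r' hr'
        · intro r hr p hp0 _ h3
          have hr0 : 0 ≤ r := ht₁.trans hr.1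
          apply hlarge (x r - c) (hcls r hr0)
          · intro i
            have h5 := hbx r hr0 i
            have h6 := hMc i
            have h7 : |x r i| ≤ |Bx| := by
              rw [abs_of_pos (hpos r hr0 i)]
              exact h5.2.trans (le_abs_self Bx)
            calc |(x r - c) i| = |x r i - c i| := rfl
              _ ≤ |x r i| + |c i| := abs_sub _ _
              _ ≤ |Bx| + Mc := add_le_add h7 h6
          · -- p · (x - c) ≥ 1/2
            have h7 : ∑ i, p i * (x r - c) i = ∑ i ∈ I, p i * (x r - c) i := by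
              symm
              apply Finset.sum_subset (Finset.subset_univ I)
              intro i _ hi
              rw [hp0 i hi, zero_mul]
            rw [h7]
            have hterm : ∀ i ∈ I, 1 / 2 ≤ p i * (x r - c) i := by
              intro i hi
              have h8 := hcon r hr.1 i hi
              have h9 : Real.log (x r i) ≤ Real.log ε := Real.log_le_log (hpos r hr0 i) h8.le
              have h10 := (abs_le.mp (h3 i hi)).2
              have h11 : p i ≤ -(1 / cm) := by linarith only [hε4, h9, h10]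
              have h12 : (x r - c) i ≤ -(cm / 2) := by
                have := hcm i
                rw [Pi.sub_apply]; linarith only [hε2, h8, this]
              have h13 : 0 < 1 / cm := by positivity
              have h14 : (1 / cm) * (cm / 2) ≤ (-p i) * (-(x r - c) i) :=
                mul_le_mul (by linarith only [hε4, h9, h10]) (by linarith only [h12]) (by positivity) (by linarith only [hε3, h9, h10])
              have h15 : (1 / cm) * (cm / 2) = 1 / 2 := by (clear * - hcm0; field_simp)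
              linarith only [h14, h15]
            obtain ⟨i₀, hi₀⟩ := hI
            have h8 := Finset.single_le_sum (f := fun i => p i * (x r - c) i)
              (fun i hi => le_trans (by norm_num) (hterm i hi)) hi₀
            exact (hterm i₀ hi₀).trans h8
        · intro r hr
          exact hreg' r hr.1 (fun i hi => (hcon r hr.1 i hi).le)
      have hρ : 0 < η * h * m := mul_pos (mul_pos hV.η_pos hh) hm
      refine no_linear_decrease hρ (s := t₁) (v := fun t => V (x t)) (A := -(d * Real.exp C))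
        hdec ?_
      intro t ht
      exact (sum_ge I C (x t) (fun i _ => hpos t (ht₁.trans ht) i)).trans
        (hV.lower (x t) (fun i _ => hpos t (ht₁.trans ht) i))
    obtain ⟨s, hs, hsI⟩ := hvisit
    refine ⟨s, ht₁.trans hs, fun t ht => ?_⟩
    exact hex x s t ht (hseg s t (ht₁.trans hs)) (fun r hr => hreg' r (hs.trans hr.1)) hsI

/-- MAIN: the permanence theorem. -/
theorem permanence (G : Network d) (hG : G.Endotactic)
    (k : (Fin d → ℕ) × (Fin d → ℕ) → ℝ) (hk : ∀ r ∈ G.reactions, 0 < k r)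
    (c : Fin d → ℝ) (hc : ∀ i, 0 < c i) :
    PermanentOn (G.field k) (G.posClass c) := by
  refine ⟨?_, ?_, ?_, ?_⟩
  · intro x₀ hx₀
    exact (global_box G hG k hk x₀ hx₀.2).1
  · intro b hb x hx hx0
    obtain ⟨⟨z, hz, hz0⟩, huniq, _⟩ := global_box G hG k hk (x 0) hx0.2
    exact ⟨z, hz, huniq b hb x hx rfl z hz hz0⟩
  · intro x hx hx0 t ht i
    obtain ⟨_, _, κ, hκ, B, hbox⟩ := global_box G hG k hk (x 0) hx0.2
    exact lt_of_lt_of_le hκ (hbox x hx rfl t ht i).1
  · obtain ⟨B, hB⟩ := eventual_up G hG k hk c hc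
    have h1 : ∀ i : Fin d, ∃ κ > 0, ∀ x, IsGlobalSolution (G.field k) x →
        x 0 ∈ G.posClass c → ∃ t₀ ≥ 0, ∀ t ≥ t₀, κ ≤ x t i := by
      intro i
      obtain ⟨κ, hκ, h⟩ := eventual_low G hG k hk c hc B hB _ {i} (Finset.singleton_nonempty i)
        (Nat.lt_succ_self _)
      refine ⟨κ, hκ, fun x hx hx0 => ?_⟩
      obtain ⟨t₀, ht₀, h'⟩ := h x hx hx0
      refine ⟨t₀, ht₀, fun t ht => ?_⟩
      obtain ⟨j, hj, hj'⟩ := h' t ht
      rw [Finset.mem_singleton] at hj
      rw [hj] at hj'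
      exact hj'
    choose κf hκf hκ using h1
    obtain ⟨κ, hκ0, hκle⟩ := exists_pos_le κf hκf
    refine ⟨{y | y - c ∈ G.stoich ∧ ∀ i, κ ≤ y i ∧ y i ≤ B}, ?_, isCompact_box_class G c κ B, ?_⟩
    · intro y hy
      exact ⟨hy.1, fun i => lt_of_lt_of_le hκ0 (hy.2 i).1⟩
    · intro x hx hx0
      obtain ⟨_, _, κx, hκx, Bx, hbox⟩ := global_box G hG k hk (x 0) hx0.2
      have hbx := hbox x hx rfl
      have hpos : ∀ r ≥ 0, ∀ i, 0 < x r i := fun r hr i => lt_of_lt_of_le hκx (hbx r hr i).1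
      obtain ⟨tB, htB, hBt⟩ := hB x hx hx0
      have h2 : ∀ i, ∃ t₀ ≥ 0, ∀ t ≥ t₀, κf i ≤ x t i := fun i => hκ i x hx hx0
      choose ti hti0 hti using h2
      refine ⟨tB + ∑ j, ti j, fun t ht => ?_⟩
      have hsum : 0 ≤ ∑ j, ti j := Finset.sum_nonneg fun j _ => hti0 j
      have ht0 : 0 ≤ t := by linarith
      refine ⟨?_, fun i => ⟨(hκle i).trans (hti i t ?_), hBt t (by linarith) i⟩⟩
      · have h3 := (hx.seg (s := 0) (t := t) le_rfl hpos).sub_mem ht0
        have h4 := G.stoich.add_mem h3 hx0.1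
        have : x t - c = x t - x 0 + (x 0 - c) := by abel
        rw [this]; exact h4
      · have h3 : ti i ≤ ∑ j, ti j :=
          Finset.single_le_sum (f := ti) (fun j _ => hti0 j) (Finset.mem_univ i)
        linarith only [htB, ht, h3]


end Vale.Agent.P072.H603
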